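import Mathlib

/-!
# The Prékopa–Leindler inequality (midpoint form)

If `f x * g y ≤ h ((x + y) / 2) ^ 2` for all `x, y`, then `(∫ f) (∫ g) ≤ (∫ h) ^ 2`.
Proved on `ℝ` (level sets and the one-dimensional Brunn–Minkowski inequality), on products
(Tonelli), on `Fin n → ℝ` and on `EuclideanSpace ℝ (Fin n)`.
-/

set_option autoImplicit false

namespace Crest.Agent.Lib.PrekopaLeindler

open MeasureTheory Set
open scoped ENNReal NNReal

lemma volume_eq_two_mul_preimage (A : Set ℝ) (c : ℝ) :
    volume A = 2 * volume ((fun z : ℝ => 2 * z - c) ⁻¹' A) := by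
  have h1 : (fun z : ℝ => 2 * z - c) ⁻¹' A
      = (fun z : ℝ => 2 * z) ⁻¹' ((fun z : ℝ => z + (-c)) ⁻¹' A) := by
    ext z; simp [sub_eq_add_neg]
  rw [h1, Real.volume_preimage_mul_left (by norm_num : (2 : ℝ) ≠ 0), measure_preimage_add_right,
    ← mul_assoc]
  have : (2 : ℝ≥0∞) * ENNReal.ofReal |(2 : ℝ)⁻¹| = 1 := by
    rw [abs_of_pos (by norm_num), ENNReal.ofReal_inv_of_pos (by norm_num)]
    simp only [ENNReal.ofReal_ofNat]
    exact ENNReal.mul_inv_cancel (by norm_num) (by norm_num)
  rw [this, one_mul]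

lemma brunn_minkowski_compact {A B C : Set ℝ} (hA : IsCompact A) (hB : IsCompact B)
    (hAn : A.Nonempty) (hBn : B.Nonempty) (hC : ∀ x ∈ A, ∀ y ∈ B, (x + y) / 2 ∈ C) :
    volume A + volume B ≤ 2 * volume C := by
  obtain ⟨a, haA, ha⟩ := hA.exists_isGreatest hAn
  obtain ⟨b, hbB, hb⟩ := hB.exists_isLeast hBn
  set A' := (fun z : ℝ => 2 * z - b) ⁻¹' A with hA'
  set B' := (fun z : ℝ => 2 * z - a) ⁻¹' B with hB'
  have hAm : MeasurableSet A' := hA.measurableSet.preimage (by fun_prop)
  have hBm : MeasurableSet B' := hB.measurableSet.preimage (by fun_prop)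
  have hsub : A' ∪ B' ⊆ C := by
    rintro z (hz | hz)
    · have := hC _ hz _ hbB
      simpa using this
    · have := hC _ haA _ hz
      simpa using this
  have hint : volume (A' ∩ B') = 0 := by
    apply measure_mono_null (t := {(a + b) / 2}) _ (by simp)
    rintro z ⟨hz1, hz2⟩
    have h1 := ha hz1
    have h2 := hb hz2
    simp only [mem_singleton_iff]
    simp only at h1 h2
    linarith
  have hadd := measure_union_add_inter (μ := volume) A' hBm
  rw [hint, add_zero] at hadd
  rw [volume_eq_two_mul_preimage A b, volume_eq_two_mul_preimage B a, ← mul_add, ← hadd]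
  gcongr

/-- One-dimensional Brunn–Minkowski inequality, midpoint form. -/
lemma brunn_minkowski_real {A B C : Set ℝ} (hA : MeasurableSet A) (hB : MeasurableSet B)
    (hAn : A.Nonempty) (hBn : B.Nonempty) (hC : ∀ x ∈ A, ∀ y ∈ B, (x + y) / 2 ∈ C) :
    volume A + volume B ≤ 2 * volume C := by
  obtain ⟨a, ha⟩ := hAn
  obtain ⟨b, hb⟩ := hBn
  rw [hA.measure_eq_iSup_isCompact, hB.measure_eq_iSup_isCompact]
  simp only [iSup_and']
  apply ENNReal.biSup_add_biSup_le' ⟨∅, by simp⟩ ⟨∅, by simp⟩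
  rintro K ⟨hKA, hK⟩ L ⟨hLB, hL⟩
  calc volume K + volume L ≤ volume (insert a K) + volume (insert b L) := by
        gcongr <;> exact subset_insert _ _
    _ ≤ 2 * volume C := by
        apply brunn_minkowski_compact (hK.insert a) (hL.insert b) (insert_nonempty _ _)
          (insert_nonempty _ _)
        intro x hx y hy
        apply hC
        · exact insert_subset ha hKA hx
        · exact insert_subset hb hLB hy

/-- Layer cake for an `ℝ≥0∞`-valued function bounded by a finite positive constant `a`. -/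
lemma lintegral_eq_mul_layers {α : Type*} [MeasurableSpace α] (μ : Measure α) {f : α → ℝ≥0∞}
    (hf : Measurable f) {a : ℝ≥0} (ha : 0 < a) (hfa : ∀ x, f x ≤ a) :
    ∫⁻ x, f x ∂μ = a * ∫⁻ t in Ioo (0 : ℝ) 1, μ {x | a * ENNReal.ofReal t < f x} := by
  have hfin : ∀ x, f x ≠ ⊤ := fun x => ne_top_of_le_ne_top ENNReal.coe_ne_top (hfa x)
  have ha' : (0 : ℝ) < a := ha
  have h1 : ∀ x, f x = a * ENNReal.ofReal ((f x).toReal / a) := by
    intro x
    rw [ENNReal.ofReal_div_of_pos ha', ENNReal.ofReal_toReal (hfin x), ENNReal.ofReal_coe_nnreal,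
      ENNReal.mul_div_cancel (by simpa using ha.ne') ENNReal.coe_ne_top]
  have hm : Measurable fun x => (f x).toReal / a := hf.ennreal_toReal.div_const _
  have h2 : ∫⁻ x, f x ∂μ = a * ∫⁻ x, ENNReal.ofReal ((f x).toReal / a) ∂μ := by
    rw [← lintegral_const_mul _ hm.ennreal_ofReal]
    exact lintegral_congr h1
  rw [h2, lintegral_eq_lintegral_meas_lt μ (Filter.Eventually.of_forall fun x => by positivity)
    hm.aemeasurable]
  congr 1
  have hset : ∀ t : ℝ, 0 < t → {x | t < (f x).toReal / a} = {x | a * ENNReal.ofReal t < f x} := by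
    intro t ht
    ext x
    simp only [mem_ofPred_eq]
    rw [lt_div_iff₀ ha', ← ENNReal.ofReal_coe_nnreal, ← ENNReal.ofReal_mul ha'.le,
      ENNReal.ofReal_lt_iff_lt_toReal (by positivity) (hfin x), mul_comm]
  have hsplit : Ioi (0 : ℝ) = Ioo 0 1 ∪ Ici 1 := by
    ext t; simp only [mem_Ioi, mem_union, mem_Ioo, mem_Ici]
    constructor
    · intro h; by_cases h1 : t < 1
      · exact Or.inl ⟨h, h1⟩
      · exact Or.inr (not_lt.mp h1)
    · rintro (h | h)
      · exact h.1
      · linarith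
  rw [hsplit, lintegral_union measurableSet_Ici]
  · have hz : ∫⁻ t in Ici (1 : ℝ), μ {x | t < (f x).toReal / a} = 0 := by
      rw [setLIntegral_congr_fun measurableSet_Ici (g := fun _ => 0)]
      · simp
      · intro t ht
        have : {x | t < (f x).toReal / a} = ∅ := by
          ext x
          simp only [mem_ofPred_eq, mem_empty_iff_false, iff_false, not_lt]
          rw [div_le_iff₀ ha']
          have h3 : (f x).toReal ≤ a := by
            have := ENNReal.toReal_mono ENNReal.coe_ne_top (hfa x)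
            simpa using this
          have h4 : (1 : ℝ) ≤ t := ht
          nlinarith
        simp [this]
    rw [hz, add_zero]
    apply setLIntegral_congr_fun measurableSet_Ioo
    intro t ht
    simp only
    rw [hset t ht.1]
  · rw [Set.disjoint_left]
    intro t ht ht'
    exact absurd ht.2 (not_lt.mpr ht')

lemma measurable_layers {α : Type*} [MeasurableSpace α] (μ : Measure α) {f : α → ℝ≥0∞}
    (a : ℝ≥0∞) : Measurable fun t : ℝ => μ {x | a * ENNReal.ofReal t < f x} := by
  apply Antitone.measurable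
  intro s t hst
  apply measure_mono
  intro x hx
  simp only [mem_ofPred_eq] at hx ⊢
  exact lt_of_le_of_lt (by gcongr) hx

lemma ennreal_four_mul_le (x y : ℝ≥0∞) : 4 * (x * y) ≤ (x + y) ^ 2 := by
  by_cases hx : x = ⊤
  · by_cases hy : y = 0
    · simp [hy]
    · simp [hx]
  by_cases hy : y = ⊤
  · by_cases hx0 : x = 0
    · simp [hx0]
    · simp [hy]
  lift x to ℝ≥0 using hx
  lift y to ℝ≥0 using hy
  have : 4 * (x * y) ≤ (x + y) ^ 2 := by
    rw [← NNReal.coe_le_coe]
    push_cast
    nlinarith [sq_nonneg ((x : ℝ) - y)]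
  exact_mod_cast this

lemma prekopa_leindler_real_bdd {f g h : ℝ → ℝ≥0∞} (hf : Measurable f) (hg : Measurable g)
    (hh : Measurable h) (M : ℝ≥0) (hfM : ∀ x, f x ≤ M) (hgM : ∀ x, g x ≤ M)
    (H : ∀ x y, f x * g y ≤ h ((x + y) / 2) ^ 2) :
    (∫⁻ x, f x) * (∫⁻ x, g x) ≤ (∫⁻ x, h x) ^ 2 := by
  have haT : (⨆ x, f x) ≠ ⊤ := ne_top_of_le_ne_top ENNReal.coe_ne_top (iSup_le hfM)
  have hbT : (⨆ x, g x) ≠ ⊤ := ne_top_of_le_ne_top ENNReal.coe_ne_top (iSup_le hgM)
  obtain ⟨a, ha⟩ : ∃ a : ℝ≥0, (a : ℝ≥0∞) = ⨆ x, f x := ⟨_, ENNReal.coe_toNNReal haT⟩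
  obtain ⟨b, hb⟩ : ∃ b : ℝ≥0, (b : ℝ≥0∞) = ⨆ x, g x := ⟨_, ENNReal.coe_toNNReal hbT⟩
  have hfa : ∀ x, f x ≤ a := fun x => ha ▸ le_iSup f x
  have hgb : ∀ x, g x ≤ b := fun x => hb ▸ le_iSup g x
  rcases eq_or_ne a 0 with ha0 | ha0
  · have : f = fun _ => 0 := funext fun x => by simpa [ha0] using hfa x
    simp [this]
  rcases eq_or_ne b 0 with hb0 | hb0
  · have : g = fun _ => 0 := funext fun x => by simpa [hb0] using hgb x
    simp [this]
  have hap : 0 < a := pos_iff_ne_zero.mpr ha0
  have hbp : 0 < b := pos_iff_ne_zero.mpr hb0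
  set c : ℝ≥0 := NNReal.sqrt (a * b) with hc
  have hc2 : c ^ 2 = a * b := NNReal.sq_sqrt _
  have hcp : 0 < c := NNReal.sqrt_pos.mpr (mul_pos hap hbp)
  have hc2' : (c : ℝ≥0∞) ^ 2 = a * b := by exact_mod_cast hc2
  set h' : ℝ → ℝ≥0∞ := fun x => min (h x) c with hh'
  have hh'm : Measurable h' := hh.min measurable_const
  have e1 := lintegral_eq_mul_layers volume hf hap hfa
  have e2 := lintegral_eq_mul_layers volume hg hbp hgb
  have e3 := lintegral_eq_mul_layers volume hh'm hcp (fun x => min_le_right _ _)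
  set F := ∫⁻ t in Ioo (0 : ℝ) 1, volume {x | a * ENNReal.ofReal t < f x} with hF
  set G := ∫⁻ t in Ioo (0 : ℝ) 1, volume {x | b * ENNReal.ofReal t < g x} with hG
  set H' := ∫⁻ t in Ioo (0 : ℝ) 1, volume {x | c * ENNReal.ofReal t < h' x} with hH'
  have key : F + G ≤ 2 * H' := by
    rw [hF, hG, hH', ← lintegral_add_left (measurable_layers _ _),
      ← lintegral_const_mul _ (measurable_layers _ _)]
    apply setLIntegral_mono' measurableSet_Ioo
    intro t ht
    have ht1 : ENNReal.ofReal t < 1 := by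
      rw [← ENNReal.ofReal_one]; exact (ENNReal.ofReal_lt_ofReal_iff one_pos).mpr ht.2
    have ht0 : ENNReal.ofReal t ≠ 0 := by simpa using ht.1
    have hlt : ∀ u : ℝ≥0, 0 < u → (u : ℝ≥0∞) * ENNReal.ofReal t < u := by
      intro u hu
      calc (u : ℝ≥0∞) * ENNReal.ofReal t < u * 1 :=
            ENNReal.mul_lt_mul_right (by simpa using hu.ne') ENNReal.coe_ne_top ht1
        _ = u := mul_one _
    apply brunn_minkowski_real (measurableSet_lt measurable_const hf)
      (measurableSet_lt measurable_const hg)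
    · have := hlt a hap
      rw [ha] at this
      obtain ⟨x, hx⟩ := lt_iSup_iff.mp this
      exact ⟨x, by simpa [ha] using hx⟩
    · have := hlt b hbp
      rw [hb] at this
      obtain ⟨x, hx⟩ := lt_iSup_iff.mp this
      exact ⟨x, by simpa [hb] using hx⟩
    · intro x hx y hy
      simp only [mem_ofPred_eq] at hx hy ⊢
      refine lt_min ?_ (hlt c hcp)
      by_contra hcon
      push Not at hcon
      have h1 : h ((x + y) / 2) ^ 2 ≤ (c * ENNReal.ofReal t) ^ 2 := by gcongr
      have h2 : (a * ENNReal.ofReal t) * (b * ENNReal.ofReal t) < f x * g y :=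
        ENNReal.mul_lt_mul hx hy
      have h3 : ((c : ℝ≥0∞) * ENNReal.ofReal t) ^ 2
          = (a * ENNReal.ofReal t) * (b * ENNReal.ofReal t) := by
        rw [mul_pow, hc2']; ring
      exact absurd ((H x y).trans (h1.trans_eq h3)) (not_le.mpr h2)
  have key2 : F * G ≤ H' ^ 2 := by
    have h4 : 4 * (F * G) ≤ 4 * H' ^ 2 := by
      calc 4 * (F * G) ≤ (F + G) ^ 2 := ennreal_four_mul_le F G
        _ ≤ (2 * H') ^ 2 := by gcongr
        _ = 4 * H' ^ 2 := by ring
    exact (ENNReal.mul_le_mul_iff_right (by norm_num) (by norm_num)).mp h4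
  calc (∫⁻ x, f x) * (∫⁻ x, g x) = (a * b) * (F * G) := by rw [e1, e2]; ring
    _ ≤ (a * b) * H' ^ 2 := by gcongr
    _ = (∫⁻ x, h' x) ^ 2 := by rw [e3, mul_pow, hc2']
    _ ≤ (∫⁻ x, h x) ^ 2 := by
        gcongr with x
        exact min_le_left _ _

lemma lintegral_eq_iSup_min {α : Type*} [MeasurableSpace α] (μ : Measure α) {f : α → ℝ≥0∞}
    (hf : Measurable f) : ∫⁻ x, f x ∂μ = ⨆ n : ℕ, ∫⁻ x, min (f x) n ∂μ := by
  rw [← lintegral_iSup (fun n => hf.min measurable_const)]
  · apply lintegral_congr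
    intro x
    rw [← inf_iSup_eq, ENNReal.iSup_natCast]
    simp
  · intro n m hnm x
    simp only
    gcongr

/-- The midpoint Prékopa–Leindler property of a measure `μ` for a binary operation `m`. -/
def PLProp {α : Type*} [MeasurableSpace α] (μ : Measure α) (m : α → α → α) : Prop :=
  ∀ f g h : α → ℝ≥0∞, Measurable f → Measurable g → Measurable h →
    (∀ x y, f x * g y ≤ h (m x y) ^ 2) → (∫⁻ x, f x ∂μ) * (∫⁻ x, g x ∂μ) ≤ (∫⁻ x, h x ∂μ) ^ 2

lemma plProp_real : PLProp (volume : Measure ℝ) (fun x y => (x + y) / 2) := by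
  intro f g h hf hg hh H
  rw [lintegral_eq_iSup_min _ hf, lintegral_eq_iSup_min _ hg, ENNReal.iSup_mul]
  apply iSup_le
  intro n
  rw [ENNReal.mul_iSup]
  apply iSup_le
  intro k
  apply prekopa_leindler_real_bdd (hf.min measurable_const) (hg.min measurable_const) hh
    ((n + k : ℕ) : ℝ≥0)
  · intro x
    exact (min_le_right _ _).trans (by push_cast; exact le_self_add)
  · intro x
    exact (min_le_right _ _).trans (by push_cast; exact le_add_self)
  · intro x y
    exact le_trans (by gcongr <;> exact min_le_left _ _) (H x y)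

lemma PLProp.prod {α β : Type*} [MeasurableSpace α] [MeasurableSpace β] {μ : Measure α}
    {ν : Measure β} [SFinite ν] {m : α → α → α} {n : β → β → β} (hμ : PLProp μ m)
    (hν : PLProp ν n) : PLProp (μ.prod ν) (fun p q => (m p.1 q.1, n p.2 q.2)) := by
  intro f g h hf hg hh H
  rw [lintegral_prod _ hf.aemeasurable, lintegral_prod _ hg.aemeasurable,
    lintegral_prod _ hh.aemeasurable]
  apply hμ _ _ _ hf.lintegral_prod_right' hg.lintegral_prod_right' hh.lintegral_prod_right'
  intro x y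
  apply hν _ _ _ (hf.comp measurable_prodMk_left) (hg.comp measurable_prodMk_left)
    (hh.comp measurable_prodMk_left)
  intro u v
  exact H (x, u) (y, v)

lemma PLProp.of_measurableEquiv {α β : Type*} [MeasurableSpace α] [MeasurableSpace β]
    {μ : Measure α} {ν : Measure β} {m : α → α → α} {n : β → β → β} (e : α ≃ᵐ β)
    (he : MeasurePreserving e μ ν) (hmn : ∀ x y, e (m x y) = n (e x) (e y)) (hν : PLProp ν n) :
    PLProp μ m := by
  intro f g h hf hg hh H
  have he' := he.symm e
  rw [← he'.lintegral_comp hf, ← he'.lintegral_comp hg, ← he'.lintegral_comp hh]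
  apply hν _ _ _ (hf.comp e.symm.measurable) (hg.comp e.symm.measurable)
    (hh.comp e.symm.measurable)
  intro x y
  have := H (e.symm x) (e.symm y)
  have h2 : m (e.symm x) (e.symm y) = e.symm (n x y) := by
    apply e.injective
    simp [hmn]
  simpa [h2] using this

lemma plProp_pi (n : ℕ) :
    PLProp (volume : Measure (Fin n → ℝ)) (fun x y => fun i => (x i + y i) / 2) := by
  induction n with
  | zero =>
    intro f g h hf hg hh H
    have hv : (volume : Measure (Fin 0 → ℝ)) = Measure.dirac default := by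
      rw [volume_pi, Measure.pi_of_empty]
      congr 1
      exact Subsingleton.elim _ _
    rw [hv, lintegral_dirac' _ hf, lintegral_dirac' _ hg, lintegral_dirac' _ hh]
    convert H default default
  | succ n ih =>
    apply PLProp.of_measurableEquiv (MeasurableEquiv.piFinSuccAbove (fun _ => ℝ) 0)
      (volume_preserving_piFinSuccAbove (fun _ => ℝ) 0) _ (plProp_real.prod ih)
    intro x y
    rfl

lemma plProp_euclidean (n : ℕ) :
    PLProp (volume : Measure (EuclideanSpace ℝ (Fin n))) (fun x y => (2 : ℝ)⁻¹ • (x + y)) := by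
  apply PLProp.of_measurableEquiv (MeasurableEquiv.toLp 2 (Fin n → ℝ)).symm
    (EuclideanSpace.volume_preserving_symm_measurableEquiv_toLp _) _ (plProp_pi n)
  intro x y
  ext i
  simp
  ring

/-- **Prékopa–Leindler inequality** (midpoint form) in Euclidean space. -/
theorem prekopa_leindler {n : ℕ} {f g h : EuclideanSpace ℝ (Fin n) → ℝ≥0∞} (hf : Measurable f)
    (hg : Measurable g) (hh : Measurable h)
    (H : ∀ x y, f x * g y ≤ h ((2 : ℝ)⁻¹ • (x + y)) ^ 2) :
    (∫⁻ x, f x) * (∫⁻ x, g x) ≤ (∫⁻ x, h x) ^ 2 :=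
  plProp_euclidean n f g h hf hg hh H

end Crest.Agent.Lib.PrekopaLeindler
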